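import Vale.Agent.P265.H336.Htpy

/-! Suspension isomorphism for the equivariant Alexander-Spanier cohomology of pairs, and the
cohomology of the cube relative to its boundary. -/

open Set Matrix

namespace Vale.Agent.P265.AS

variable {E E' : Type} [PseudoMetricSpace E] [PseudoMetricSpace E'] {k : Type} [Field k]

/-- Two pairs related by inverse maps. -/
theorem hh_le_of_inv {g : E → E} {g' : E' → E'} {X A : Set E} {X' A' : Set E'}
    {φ : E → E'} {ψ : E' → E} (hφ : IsMapP g g' X A X' A' φ) (hψ : IsMapP g' g X' A' X A ψ)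
    (hA : A ⊆ X) (hA' : A' ⊆ X') (h : ∀ x ∈ X, ψ (φ x) = x) (χ : k) (p : ℕ) : hh g χ X A p ≤ hh g' χ X' A' p := by
  refine qr_le_of_inj (pb ψ) (fun c hc => pb_mem_Zs hψ hA' hc) fun c hc hcB => ?_
  have e1 := pb_mem_Bs hφ hA hcB
  refine Bs_congr e1 one_pos fun x hx => ?_
  have a0 : ψ ∘ φ ∘ x = x := funext fun i => h _ (hx.1 i)
  simp only [pb_apply, a0]

/-- Excision: every small tuple of `X` lies in `A` or in `L`. -/
theorem hh_le_excise {g : E → E} {X A L : Set E} (hgL : Inv g (X ∩ L)) {δ : ℝ}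
    (hδ : 0 < δ) (h : ∀ (n : ℕ) (x : Fin n → E), Sm X δ x → (∀ i, x i ∈ A) ∨ ∀ i, x i ∈ L)
    (χ : k) (p : ℕ) : hh g χ X A p ≤ hh g χ (X ∩ L) (A ∩ L) p := by
  refine qr_le_of_inj LinearMap.id
    (fun c hc => Zs_restrict inter_subset_left inter_subset_left hc) ?_
  rintro c ⟨hc, ε, hε, h1, h2⟩ ⟨b, hb, ε', hε', h1', h2'⟩
  have hv : ∀ {n : ℕ} (y : Fin n → E), Sm A ε' y → ∀ b' : (Fin n → E) → k,
      (∀ x, Sm (A ∩ L) ε' x → b' x = 0) → rs k (X ∩ L) n b' y = 0 := by
    intro n y hy b' hb'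
    by_cases hyL : ∀ i, y i ∈ X ∩ L
    · rw [rs_of_mem hyL]
      exact hb' _ ⟨fun i => ⟨hy.1 i, (hyL i).2⟩, hy.2⟩
    · exact rs_of_notMem hyL
  refine ⟨rs k (X ∩ L) p b, rs_eqv hgL hb, min (min ε ε') δ, lt_min (lt_min hε hε') hδ,
    fun x hx => ?_, fun x hx => ?_⟩
  · rcases h _ x (hx.mono le_rfl (min_le_right _ _)) with hxA | hxL
    · have hxA' : Sm A (min ε ε') x := ⟨hxA, (hx.mono le_rfl (min_le_left _ _)).2⟩
      rw [h2 x (hxA'.mono le_rfl (min_le_left _ _))]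
      symm
      apply d_eq_zero
      intro y hy
      exact hv y ((hxA'.mono le_rfl (min_le_right _ _)).sub hy) b h2'
    · have hxL' : ∀ i, x i ∈ X ∩ L := fun i => ⟨hx.1 i, hxL i⟩
      rw [d_rs hxL']
      refine h1' x ⟨hxL', fun i j => ?_⟩
      exact ((hx.mono le_rfl ((min_le_left _ _).trans (min_le_right _ _))).2 i j)
  · exact hv x (hx.mono le_rfl ((min_le_left _ _).trans (min_le_right _ _))) b h2'

/-! ### The suspension -/

/-- The product of `X` with the interval `[-a, a]`. -/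
def sus (X : Set E) (a : ℝ) : Set (E × ℝ) := {x | x.1 ∈ X ∧ |x.2| ≤ a}

/-- The part of `sus X a` over `X₀` or with `b ≤ |t|`. -/
def sus₀ (X X₀ : Set E) (b a : ℝ) : Set (E × ℝ) :=
  {x | x.1 ∈ X ∧ |x.2| ≤ a ∧ (x.1 ∈ X₀ ∨ b ≤ |x.2|)}

/-- The part of `sus X a` over `X₀` or with `t ≤ -b`. -/
def susm (X X₀ : Set E) (b a : ℝ) : Set (E × ℝ) :=
  {x | x.1 ∈ X ∧ |x.2| ≤ a ∧ (x.1 ∈ X₀ ∨ x.2 ≤ -b)}

theorem dist_prod_lt {x y : E × E'} {ε : ℝ} (h1 : dist x.1 y.1 < ε) (h2 : dist x.2 y.2 < ε) :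
    dist x y < ε := by
  rw [Prod.dist_eq]; exact max_lt h1 h2

theorem dist_fst_le (x y : E × E') : dist x.1 y.1 ≤ dist x y := by
  rw [Prod.dist_eq]; exact le_max_left _ _

theorem dist_snd_le (x y : E × E') : dist x.2 y.2 ≤ dist x y := by
  rw [Prod.dist_eq]; exact le_max_right _ _

/-- The homotopy moving the interval coordinate linearly to `τ`. -/
theorem isHtpy_slide {g : E → E} {X A X' A' : Set (E × ℝ)} {a τ : ℝ} (ha : 0 < a)
    (hτ : |τ| ≤ a) (hXa : ∀ x ∈ X, |x.2| ≤ a)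
    (hX : ∀ x ∈ X, ∀ s ∈ Icc (0 : ℝ) 1, (x.1, (1 - s) * x.2 + s * τ) ∈ X')
    (hA : ∀ x ∈ A, ∀ s ∈ Icc (0 : ℝ) 1, (x.1, (1 - s) * x.2 + s * τ) ∈ A') :
    IsHtpy (Prod.map g id) (Prod.map g id) X A X' A'
      (fun s x => (x.1, (1 - s) * x.2 + s * τ)) where
  mapsX := fun s hs x hx => hX x hx s hs
  mapsA := fun s hs x hx => hA x hx s hs
  eqv := fun s hs x hx => rfl
  uc := by
    intro ε hε
    refine ⟨min (ε / 2) (ε / (4 * (a + a))), lt_min (by positivity) (by positivity), ?_⟩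
    intro s hs t ht x hx y hy hst hxy
    have h1 : dist x y < ε / 2 := hxy.trans_le (min_le_left _ _)
    have h2 : |s - t| < ε / (4 * (a + a)) := hst.trans_le (min_le_right _ _)
    refine dist_prod_lt ?_ ?_
    · exact ((dist_fst_le x y).trans_lt h1).trans (by linarith)
    · have h3 : |x.2 - y.2| < ε / 2 := by
        rw [← Real.dist_eq]
        exact (dist_snd_le x y).trans_lt h1
      change dist ((1 - s) * x.2 + s * τ) ((1 - t) * y.2 + t * τ) < ε
      rw [Real.dist_eq]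
      have e : (1 - s) * x.2 + s * τ - ((1 - t) * y.2 + t * τ) =
          (1 - s) * (x.2 - y.2) + (s - t) * (τ - y.2) := by ring
      rw [e]
      have h4 : |(1 - s) * (x.2 - y.2)| < ε / 2 := by
        rw [abs_mul]
        have : |1 - s| ≤ 1 := by rw [abs_le]; constructor <;> linarith [hs.1, hs.2]
        calc |1 - s| * |x.2 - y.2| ≤ 1 * |x.2 - y.2| :=
              mul_le_mul_of_nonneg_right this (abs_nonneg _)
          _ < ε / 2 := by rw [one_mul]; exact h3
      have h5 : |(s - t) * (τ - y.2)| ≤ ε / 4 := by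
        rw [abs_mul]
        have h6 : |τ - y.2| ≤ a + a := (abs_sub _ _).trans (add_le_add hτ (hXa y hy))
        calc |s - t| * |τ - y.2| ≤ ε / (4 * (a + a)) * (a + a) :=
              mul_le_mul h2.le h6 (abs_nonneg _) (by positivity)
          _ = ε / 4 := by field_simp
      calc |(1 - s) * (x.2 - y.2) + (s - t) * (τ - y.2)|
          ≤ |(1 - s) * (x.2 - y.2)| + |(s - t) * (τ - y.2)| := abs_add_le _ _
        _ < ε := by linarith

theorem slide_abs {a t τ s : ℝ} (ht : |t| ≤ a) (hτ : |τ| ≤ a) (hs : s ∈ Icc (0 : ℝ) 1) :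
    |(1 - s) * t + s * τ| ≤ a := by
  have h1 := abs_le.1 ht
  have h2 := abs_le.1 hτ
  rw [abs_le]
  constructor <;> nlinarith [hs.1, hs.2]

section Susp

variable {g : E → E} {X X₀ : Set E} {a b : ℝ}

omit [PseudoMetricSpace E] in
theorem inv_sus₀ (hX : Inv g X) (hX₀ : Inv g X₀) : Inv (Prod.map g id) (sus₀ X X₀ b a) := by
  intro x
  simp only [sus₀, mem_ofPred_eq, Prod.map_fst, Prod.map_snd, id, hX x.1, hX₀ x.1]

omit [PseudoMetricSpace E] in
theorem inv_sus (hX : Inv g X) : Inv (Prod.map g id) (sus X a) := by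
  intro x
  simp only [sus, mem_ofPred_eq, Prod.map_fst, Prod.map_snd, id, hX x.1]

omit [PseudoMetricSpace E] in
theorem sus₀_subset : sus₀ X X₀ b a ⊆ sus X a := fun _ hx => ⟨hx.1, hx.2.1⟩

omit [PseudoMetricSpace E] in
theorem susm_subset : susm X X₀ b a ⊆ sus₀ X X₀ b a := fun _ hx => ⟨hx.1, hx.2.1, by
  rcases hx.2.2 with h | h
  · exact Or.inl h
  · exact Or.inr (le_abs'.2 (Or.inl h))⟩

/-- The pair `(X × [-a, a], X₀ × [-a, a] ∪ X × [-a, -b])` has no cohomology. -/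
theorem hh_sus_susm (hb : 0 < b) (hab : b ≤ a) (χ : k) (p : ℕ) :
    hh (Prod.map g id) χ (sus X a) (susm X X₀ b a) p = 0 := by
  have ha : 0 < a := hb.trans_le hab
  have hτ : |(-a)| ≤ a := by rw [abs_neg, abs_of_pos ha]
  have hH : IsHtpy (Prod.map g id) (Prod.map g id) (sus X a) (susm X X₀ b a) (sus X a)
      (susm X X₀ b a) (fun s x => (x.1, (1 - s) * x.2 + s * (-a))) := by
    refine isHtpy_slide ha hτ (fun x hx => hx.2) (fun x hx s hs => ⟨hx.1, slide_abs hx.2 hτ hs⟩)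
      fun x hx s hs => ⟨hx.1, slide_abs hx.2.1 hτ hs, ?_⟩
    rcases hx.2.2 with h | h
    · exact Or.inl h
    · right
      change (1 - s) * x.2 + s * (-a) ≤ -b
      nlinarith [hs.1, hs.2]
  have h := hh_le_of_push hH (susm_subset.trans sus₀_subset) le_rfl (fun x _ => by simp) (fun x hx => ?_)
    χ p
  · rw [hh_self] at h
    exact le_antisymm h (by simp)
  · refine ⟨hx.1, by simpa using hτ, Or.inr ?_⟩
    simp only [sub_self, zero_mul, one_mul, zero_add]
    linarith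

/-- Upper bound for the suspension. -/
theorem hh_susp_le (hX : Inv g X) (hX₀ : Inv g X₀) (hs : X₀ ⊆ X) (hb : 0 < b) (hab : b ≤ a)
    (χ : k) (p : ℕ) :
    hh (Prod.map g id) χ (sus X a) (sus₀ X X₀ b a) (p + 1) ≤ hh g χ X X₀ p := by
  have ha : 0 < a := hb.trans_le hab
  refine (hh_connect susm_subset sus₀_subset (inv_sus₀ hX hX₀) χ p
    (hh_sus_susm hb hab χ (p + 1))).trans ?_
  -- excise to `t ≥ 0`
  set L : Set (E × ℝ) := {x | 0 ≤ x.2} with hL
  have hgL : Inv (Prod.map g id) (sus₀ X X₀ b a ∩ L) := by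
    intro x
    have := inv_sus₀ (b := b) (a := a) hX hX₀ x
    exact and_congr this Iff.rfl
  refine (hh_le_excise hgL (δ := b) hb ?_ χ p).trans ?_
  · intro n x hx
    by_cases h : ∀ i, x i ∈ L
    · exact Or.inr h
    · left
      push Not at h
      obtain ⟨i₀, hi₀⟩ := h
      have hi₀' : (x i₀).2 < 0 := not_le.1 hi₀
      intro i
      refine ⟨(hx.1 i).1, (hx.1 i).2.1, ?_⟩
      rcases (hx.1 i).2.2 with h | h
      · exact Or.inl h
      · right
        rcases le_abs'.1 h with h | h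
        · exact h
        · exfalso
          have := (dist_snd_le _ _).trans_lt (hx.2 i i₀)
          rw [Real.dist_eq, abs_lt] at this
          linarith
  · have hτ : |a| ≤ a := (abs_of_pos ha).le
    refine hh_le_of_retract (φ := Prod.fst) (ψ := fun x => (x, a))
      (H := fun s x => (x.1, (1 - s) * x.2 + s * a)) ?_ ?_ ?_ ?_ ?_ ?_ ?_ χ p
    · refine ⟨fun x hx => hx.1.1, fun x hx => ?_, fun _ _ => rfl, fun ε hε => ⟨ε, hε,
        fun x _ y _ hxy => (dist_fst_le x y).trans_lt hxy⟩⟩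
      rcases hx.1.2.2 with h | h
      · exact h
      · exact absurd hx.2 (not_le.2 (lt_of_le_of_lt h (neg_lt_zero.2 hb)))
    · refine ⟨fun x hx => ⟨⟨hx, hτ, Or.inr (hab.trans (le_abs_self a))⟩, ha.le⟩,
        fun x hx => ⟨⟨hs hx, hτ, Or.inl hx⟩, ha.le⟩, fun _ _ => rfl, fun ε hε => ⟨ε, hε,
        fun x _ y _ hxy => dist_prod_lt hxy (by simpa using hε)⟩⟩
    · refine isHtpy_slide ha hτ (fun x hx => hx.1.2.1) (fun x hx s hs => ⟨⟨hx.1.1,
        slide_abs hx.1.2.1 hτ hs, ?_⟩, ?_⟩) fun x hx s hs => ⟨⟨hx.1.1,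
        slide_abs hx.1.2.1 hτ hs, ?_⟩, ?_⟩
      · rcases hx.1.2.2 with h | h
        · exact Or.inl h
        · right
          have h0 : (0 : ℝ) ≤ x.2 := hx.2
          rw [abs_of_nonneg h0] at h
          refine le_trans ?_ (le_abs_self _)
          change b ≤ (1 - s) * x.2 + s * a
          nlinarith [hs.1, hs.2]
      · have h0 : (0 : ℝ) ≤ x.2 := hx.2
        change 0 ≤ (1 - s) * x.2 + s * a
        nlinarith [hs.1, hs.2]
      · rcases hx.1.2.2 with h | h
        · exact Or.inl h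
        · exact absurd hx.2 (not_le.2 (lt_of_le_of_lt h (neg_lt_zero.2 hb)))
      · have h0 : (0 : ℝ) ≤ x.2 := hx.2
        change 0 ≤ (1 - s) * x.2 + s * a
        nlinarith [hs.1, hs.2]
    · exact fun x hx => ⟨susm_subset hx.1, hx.2⟩
    · exact hs
    · intro x _; simp
    · intro x _; simp

/-- A cochain of `X` times the indicator function of `t₀ > 0`. -/
noncomputable def up (k : Type) [Field k] (E : Type) (n : ℕ) :
    ((Fin (n + 1) → E) → k) →ₗ[k] ((Fin (n + 1) → E × ℝ) → k) := by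
  classical
  exact
  { toFun := fun c z => if 0 < (z 0).2 then c (Prod.fst ∘ z) else 0
    map_add' := fun c c' => by
      funext x; simp only [Pi.add_apply]; split_ifs <;> simp
    map_smul' := fun a c => by
      funext x; simp only [Pi.smul_apply, RingHom.id_apply]; split_ifs <;> simp }

omit [PseudoMetricSpace E] in
theorem up_pos {n : ℕ} {c : (Fin (n + 1) → E) → k} {z : Fin (n + 1) → E × ℝ}
    (h : 0 < (z 0).2) : up k E n c z = c (Prod.fst ∘ z) := by
  classical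
  exact if_pos h

omit [PseudoMetricSpace E] in
theorem up_neg {n : ℕ} {c : (Fin (n + 1) → E) → k} {z : Fin (n + 1) → E × ℝ}
    (h : ¬ 0 < (z 0).2) : up k E n c z = 0 := by
  classical
  exact if_neg h

theorem Sm.fst {X : Set E} {n : ℕ} {ε : ℝ} {z : Fin n → E × ℝ} {S : Set (E × ℝ)} (hz : Sm S ε z)
    (h : ∀ i, (z i).1 ∈ X) : Sm X ε (Prod.fst ∘ z) :=
  ⟨h, fun i j => (dist_fst_le _ _).trans_lt (hz.2 i j)⟩

/-- Lower bound for the suspension. -/
theorem le_hh_susp (hs : X₀ ⊆ X) (hb : 0 < b) (hab : b ≤ a)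
    (χ : k) (p : ℕ) :
    hh g χ X X₀ p ≤ hh (Prod.map g id) χ (sus X a) (sus₀ X X₀ b a) (p + 1) := by
  have ha : 0 < a := hb.trans_le hab
  have upE : ∀ {c : (Fin (p + 1) → E) → k}, Eqv g χ X c →
      Eqv (Prod.map g id) χ (sus X a) (up k E p c) := by
    intro c hc z hz
    by_cases h : 0 < (z 0).2
    · rw [up_pos h, up_pos (z := Prod.map g id ∘ z) h]
      exact hc (Prod.fst ∘ z) fun i => (hz i).1
    · rw [up_neg h, up_neg (z := Prod.map g id ∘ z) h, mul_zero]
  refine qr_le_of_inj (dL (E × ℝ) k (p + 1) ∘ₗ up k E p) ?_ ?_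
  · rintro c ⟨hc, ε, hε, h1, h2⟩
    refine ⟨(upE hc).d, min ε b, lt_min hε hb, fun z hz => ?_, fun z hz => ?_⟩
    · change d (d _) z = 0
      rw [d_d]; rfl
    · change d (up k E p c) z = 0
      by_cases h : ∃ i, b ≤ |(z i).2|
      · obtain ⟨i, hi⟩ := h
        have hsm : Sm X ε (Prod.fst ∘ z) :=
          (hz.mono sus₀_subset (min_le_left _ _)).fst fun i => (hz.1 i).1
        rcases le_abs'.1 hi with hi | hi
        · -- all `t < 0`
          refine d_eq_zero fun y hy => up_neg ?_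
          obtain ⟨j, hj⟩ := hy 0
          rw [hj]
          have := (dist_snd_le _ _).trans_lt (hz.2 j i)
          rw [Real.dist_eq, abs_lt] at this
          have h3 := this.2.trans_le (min_le_right _ _)
          exact not_lt.2 (by linarith)
        · have e : d (up k E p c) z = d (pb Prod.fst c) z := by
            refine d_congr fun y hy => up_pos ?_
            obtain ⟨j, hj⟩ := hy 0
            rw [hj]
            have := (dist_snd_le _ _).trans_lt (hz.2 j i)
            rw [Real.dist_eq, abs_lt] at this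
            have h3 := (neg_le_neg (min_le_right ε b)).trans_lt this.1
            linarith
          rw [e, d_pb, pb_apply, h1 _ hsm]
      · push Not at h
        have hz0 : ∀ i, (z i).1 ∈ X₀ := fun i => by
          rcases (hz.1 i).2.2 with h' | h'
          · exact h'
          · exact absurd h' (not_le.2 (h i))
        refine d_eq_zero fun y hy => ?_
        by_cases hy0 : 0 < (y 0).2
        · rw [up_pos hy0]
          refine h2 _ ?_
          have hy' : Sm (sus₀ X X₀ b a) ε y := (hz.mono le_rfl (min_le_left _ _)).sub hy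
          refine hy'.fst fun i => ?_
          obtain ⟨j, hj⟩ := hy i
          rw [hj]
          exact hz0 j
        · exact up_neg hy0
  · rintro c ⟨hc, ε, hε, h1, h2⟩ ⟨e, he, ε', hε', h1', h2'⟩
    -- the difference is a cocycle of `(sus X a, X₀ × [-a, a])`
    have hcoc : up k E p c - e ∈ Zs (Prod.map g id) χ (sus X a) (sus X₀ a) p := by
      refine ⟨(upE hc).sub he, min ε ε', lt_min hε hε', fun z hz => ?_, fun z hz => ?_⟩
      · have := h1' z (hz.mono le_rfl (min_le_right _ _))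
        rw [d_sub, Pi.sub_apply, ← this]
        exact sub_self _
      · have hz' : Sm (sus₀ X X₀ b a) ε' z := by
          refine ⟨fun i => ⟨hs (hz.1 i).1, (hz.1 i).2, Or.inl (hz.1 i).1⟩, fun i j => ?_⟩
          exact (hz.2 i j).trans_le (min_le_right _ _)
        rw [Pi.sub_apply, h2' z hz', sub_zero]
        by_cases hz0 : 0 < (z 0).2
        · rw [up_pos hz0]
          exact h2 _ ((hz.mono le_rfl (min_le_left _ _)).fst fun i => (hz.1 i).1)
        · exact up_neg hz0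
    have hH : IsHtpy g (Prod.map g id) X X₀ (sus X a) (sus X₀ a)
        (fun s x => (x, (2 * s - 1) * a)) := by
      have hm : ∀ s ∈ Icc (0 : ℝ) 1, |(2 * s - 1) * a| ≤ a := by
        intro s hs
        rw [abs_le]
        constructor <;> nlinarith [hs.1, hs.2]
      refine ⟨fun s hs x hx => ⟨hx, hm s hs⟩, fun s hs x hx => ⟨hx, hm s hs⟩,
        fun s hs x hx => rfl, fun ε hε => ⟨min ε (ε / (4 * a)), lt_min hε (by positivity), ?_⟩⟩
      intro s hs t ht x hx y hy hst hxy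
      refine dist_prod_lt (hxy.trans_le (min_le_left _ _)) ?_
      change dist ((2 * s - 1) * a) ((2 * t - 1) * a) < ε
      rw [Real.dist_eq]
      have e : (2 * s - 1) * a - (2 * t - 1) * a = (2 * a) * (s - t) := by ring
      rw [e, abs_mul, abs_of_pos (by positivity)]
      calc 2 * a * |s - t| ≤ 2 * a * (ε / (4 * a)) :=
            mul_le_mul_of_nonneg_left (hst.trans_le (min_le_right _ _)).le (by positivity)
        _ = ε / 2 := by field_simp; norm_num
        _ < ε := by linarith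
    have e1 := homotopy hH hs hcoc
    refine Bs_congr e1 hε' fun x hx => ?_
    have mem : ∀ τ, |τ| = a → Sm (sus₀ X X₀ b a) ε' ((fun y : E => (y, τ)) ∘ x) := by
      intro τ hτ
      refine ⟨fun i => ⟨hx.1 i, hτ.le, Or.inr (by
        change b ≤ |τ|
        rw [hτ]; exact hab)⟩, fun i j => ?_⟩
      exact dist_prod_lt (hx.2 i j) (by simpa using hε')
    have e0 : (fun y : E => (y, (2 * (0 : ℝ) - 1) * a)) = fun y => (y, -a) := by
      funext y; congr 1; ring
    have e1 : (fun y : E => (y, (2 * (1 : ℝ) - 1) * a)) = fun y => (y, a) := by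
      funext y; congr 1; ring
    rw [e0, e1]
    simp only [Pi.sub_apply, pb_apply]
    rw [h2' _ (mem a (abs_of_pos ha)), h2' _ (mem (-a) (by rw [abs_neg, abs_of_pos ha])),
      up_pos (z := (fun y : E => (y, a)) ∘ x) ha,
      up_neg (z := (fun y : E => (y, -a)) ∘ x) (not_lt.2 (neg_nonpos.2 ha.le))]
    simp only [sub_zero]
    rfl

/-- **Suspension.** -/
theorem hh_susp (hX : Inv g X) (hX₀ : Inv g X₀) (hs : X₀ ⊆ X) (hb : 0 < b) (hab : b ≤ a)
    (χ : k) (p : ℕ) :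
    hh (Prod.map g id) χ (sus X a) (sus₀ X X₀ b a) (p + 1) = hh g χ X X₀ p :=
  le_antisymm (hh_susp_le hX hX₀ hs hb hab χ p) (le_hh_susp hs hb hab χ p)

theorem hh_susp_zero (hb : 0 < b) (hab : b ≤ a) (χ : k) :
    hh (Prod.map g id) χ (sus X a) (sus₀ X X₀ b a) 0 = 0 := by
  rw [hh_eq_zero_iff]
  intro c hc
  have h := hh_eq_zero_iff.1 (hh_sus_susm (g := g) (X := X) (X₀ := X₀) hb hab χ 0)
    (Zs_restrict le_rfl susm_subset hc)
  obtain ⟨e, he, ε, hε, h1, h2⟩ := h
  refine ⟨0, fun x _ => by simp, ε, hε, fun x hx => ?_, fun _ _ => rfl⟩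
  rw [h1 x hx, d_zero]
  refine d_eq_zero fun y _ => h2 y ⟨fun i => i.elim0, fun i => i.elim0⟩

end Susp

/-! ### Iterated suspension -/

/-- The product of `X` with the cube `[-a, a]^n`. -/
def cub (X : Set E) (n : ℕ) (a : ℝ) : Set (E × (Fin n → ℝ)) := {x | x.1 ∈ X ∧ ∀ i, |x.2 i| ≤ a}

/-- The part of `cub X n a` over `X₀` or with `b ≤ |u i|` for some `i`. -/
def cub₀ (X X₀ : Set E) (n : ℕ) (b a : ℝ) : Set (E × (Fin n → ℝ)) :=
  {x | x.1 ∈ X ∧ (∀ i, |x.2 i| ≤ a) ∧ (x.1 ∈ X₀ ∨ ∃ i, b ≤ |x.2 i|)}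

section Cube

variable {g : E → E} {X X₀ : Set E} {a b : ℝ}

omit [PseudoMetricSpace E] in
theorem cub₀_subset {n : ℕ} : cub₀ X X₀ n b a ⊆ cub X n a := fun _ hx => ⟨hx.1, hx.2.1⟩

omit [PseudoMetricSpace E] in
theorem inv_cub (hX : Inv g X) {n : ℕ} : Inv (Prod.map g id) (cub X n a) := by
  intro x
  simp only [cub, mem_ofPred_eq, Prod.map_fst, Prod.map_snd, id, hX x.1]

omit [PseudoMetricSpace E] in
theorem inv_cub₀ (hX : Inv g X) (hX₀ : Inv g X₀) {n : ℕ} :
    Inv (Prod.map g id) (cub₀ X X₀ n b a) := by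
  intro x
  simp only [cub₀, mem_ofPred_eq, Prod.map_fst, Prod.map_snd, id, hX x.1, hX₀ x.1]

/-- The map splitting off the first coordinate. -/
def spl (n : ℕ) (x : E × (Fin (n + 1) → ℝ)) : (E × (Fin n → ℝ)) × ℝ :=
  ((x.1, fun i => x.2 i.succ), x.2 0)

/-- The inverse of `spl`. -/
def unspl (n : ℕ) (x : (E × (Fin n → ℝ)) × ℝ) : E × (Fin (n + 1) → ℝ) :=
  (x.1.1, Fin.cons x.2 x.1.2)

omit [PseudoMetricSpace E] in
theorem unspl_spl {n : ℕ} (x : E × (Fin (n + 1) → ℝ)) : unspl n (spl n x) = x := by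
  refine Prod.ext rfl ?_
  funext i
  refine Fin.cases ?_ (fun i => ?_) i <;> rfl

omit [PseudoMetricSpace E] in
theorem spl_unspl {n : ℕ} (x : (E × (Fin n → ℝ)) × ℝ) : spl n (unspl n x) = x := rfl

omit [PseudoMetricSpace E] in
theorem spl_mem_sus {n : ℕ} {x : E × (Fin (n + 1) → ℝ)} :
    spl n x ∈ sus (cub X n a) a ↔ x ∈ cub X (n + 1) a := by
  simp only [sus, cub, spl, mem_ofPred_eq, Fin.forall_fin_succ]
  tauto

omit [PseudoMetricSpace E] in
theorem spl_mem_sus₀ {n : ℕ} {x : E × (Fin (n + 1) → ℝ)} :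
    spl n x ∈ sus₀ (cub X n a) (cub₀ X X₀ n b a) b a ↔ x ∈ cub₀ X X₀ (n + 1) b a := by
  simp only [sus₀, cub, cub₀, spl, mem_ofPred_eq, Fin.forall_fin_succ, Fin.exists_fin_succ]
  tauto

theorem isMapP_spl (n : ℕ) : IsMapP (Prod.map g id) (Prod.map (Prod.map g id) id)
    (cub X (n + 1) a) (cub₀ X X₀ (n + 1) b a) (sus (cub X n a) a)
    (sus₀ (cub X n a) (cub₀ X X₀ n b a) b a) (spl n) where
  mapsX := fun _ hx => spl_mem_sus.2 hx
  mapsA := fun _ hx => spl_mem_sus₀.2 hx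
  eqv := fun _ _ => rfl
  uc := fun ε hε => ⟨ε, hε, fun x _ y _ hxy => by
    have h := (dist_pi_lt_iff hε).1 ((dist_snd_le x y).trans_lt hxy)
    refine dist_prod_lt (dist_prod_lt ((dist_fst_le x y).trans_lt hxy)
      ((dist_pi_lt_iff hε).2 fun i => h i.succ)) (h 0)⟩

theorem isMapP_unspl (n : ℕ) : IsMapP (Prod.map (Prod.map g id) id) (Prod.map g id)
    (sus (cub X n a) a) (sus₀ (cub X n a) (cub₀ X X₀ n b a) b a)
    (cub X (n + 1) a) (cub₀ X X₀ (n + 1) b a) (unspl n) where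
  mapsX := fun x hx => spl_mem_sus.1 (by rw [spl_unspl]; exact hx)
  mapsA := fun x hx => spl_mem_sus₀.1 (by rw [spl_unspl]; exact hx)
  eqv := fun _ _ => rfl
  uc := fun ε hε => ⟨ε, hε, fun x _ y _ hxy => by
    have h1 := (dist_fst_le x y).trans_lt hxy
    have h2 := (dist_pi_lt_iff hε).1 ((dist_snd_le x.1 y.1).trans_lt h1)
    refine dist_prod_lt ((dist_fst_le x.1 y.1).trans_lt h1) ((dist_pi_lt_iff hε).2 fun i => ?_)
    refine Fin.cases ?_ (fun i => ?_) i
    · exact (dist_snd_le x y).trans_lt hxy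
    · exact h2 i⟩

theorem hh_cub_succ (χ : k) (n p : ℕ) :
    hh (Prod.map g id) χ (cub X (n + 1) a) (cub₀ X X₀ (n + 1) b a) p =
      hh (Prod.map (Prod.map g id) id) χ (sus (cub X n a) a)
        (sus₀ (cub X n a) (cub₀ X X₀ n b a) b a) p :=
  le_antisymm
    (hh_le_of_inv (isMapP_spl n) (isMapP_unspl n) cub₀_subset sus₀_subset
      (fun x _ => unspl_spl x) χ p)
    (hh_le_of_inv (isMapP_unspl n) (isMapP_spl n) sus₀_subset cub₀_subset
      (fun x _ => spl_unspl x) χ p)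

theorem hh_cub_zero (hs : X₀ ⊆ X) (χ : k) (p : ℕ) :
    hh (Prod.map g id) χ (cub X 0 a) (cub₀ X X₀ 0 b a) p = hh g χ X X₀ p := by
  have h1 : IsMapP (Prod.map g id) g (cub X 0 a) (cub₀ X X₀ 0 b a) X X₀ Prod.fst := by
    refine ⟨fun x hx => hx.1, fun x hx => ?_, fun _ _ => rfl, fun ε hε => ⟨ε, hε,
      fun x _ y _ hxy => (dist_fst_le x y).trans_lt hxy⟩⟩
    rcases hx.2.2 with h | ⟨i, -⟩
    · exact h
    · exact i.elim0
  have h2 : IsMapP g (Prod.map g id) X X₀ (cub X 0 a) (cub₀ X X₀ 0 b a)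
      (fun x => (x, Fin.elim0)) := by
    refine ⟨fun x hx => ⟨hx, fun i => i.elim0⟩, fun x hx => ⟨hs hx, fun i => i.elim0, Or.inl hx⟩,
      fun x _ => ?_, fun ε hε => ⟨ε, hε, fun x _ y _ hxy => dist_prod_lt hxy (by simpa using hε)⟩⟩
    rfl
  exact le_antisymm
    (hh_le_of_inv h1 h2 cub₀_subset hs (fun x _ => Prod.ext rfl (Subsingleton.elim _ _)) χ p)
    (hh_le_of_inv h2 h1 hs cub₀_subset (fun x _ => rfl) χ p)

/-- **Iterated suspension.** -/
theorem hh_cub (hX : Inv g X) (hX₀ : Inv g X₀) (hs : X₀ ⊆ X) (hb : 0 < b) (hab : b ≤ a)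
    (χ : k) (n p : ℕ) :
    hh (Prod.map g id) χ (cub X n a) (cub₀ X X₀ n b a) (p + n) = hh g χ X X₀ p := by
  induction n with
  | zero => exact hh_cub_zero hs χ p
  | succ n ih =>
    rw [hh_cub_succ, ← add_assoc, hh_susp (inv_cub hX) (inv_cub₀ hX hX₀) cub₀_subset hb hab, ih]

theorem hh_cub_lt (hX : Inv g X) (hX₀ : Inv g X₀) (hb : 0 < b) (hab : b ≤ a)
    (χ : k) {n j : ℕ} (hj : j < n) :
    hh (Prod.map g id) χ (cub X n a) (cub₀ X X₀ n b a) j = 0 := by
  induction n generalizing j with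
  | zero => exact absurd hj (Nat.not_lt_zero _)
  | succ n ih =>
    rw [hh_cub_succ]
    cases j with
    | zero => exact hh_susp_zero hb hab χ
    | succ j =>
      rw [hh_susp (inv_cub hX) (inv_cub₀ hX hX₀) cub₀_subset hb hab]
      exact ih (Nat.lt_of_succ_lt_succ hj)

/-- The absolute case: `X = univ`, `X₀ = ∅`. -/
theorem hh_box_univ (g : E → E) (hb : 0 < b) (hab : b ≤ a) (χ : k) (n p : ℕ) :
    hh (Prod.map g id) χ {x : E × (Fin n → ℝ) | ∀ i, |x.2 i| ≤ a}
      {x | (∀ i, |x.2 i| ≤ a) ∧ ∃ i, b ≤ |x.2 i|} (p + n) = hh g χ univ ∅ p := by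
  have h := hh_cub (g := g) (X := univ) (X₀ := ∅) (fun _ => Iff.rfl) (fun _ => Iff.rfl)
    (empty_subset _) hb hab χ n p
  rw [← h]
  congr 1
  · ext x; simp [cub]
  · ext x; simp [cub₀]

end Cube

/-! ### The cube relative to its boundary -/

theorem hh_point_zero (χ : k) : hh (id : Unit → Unit) χ univ ∅ 0 ≤ 1 := by
  refine qr_le_one (LinearMap.proj (fun _ => ())) fun c _ h => ?_
  have : c = 0 := by
    funext x
    rw [Subsingleton.elim x (fun _ => ())]
    exact h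
  rw [this]
  exact Submodule.zero_mem _

theorem hh_point_succ (χ : k) (p : ℕ) : hh (id : Unit → Unit) χ univ ∅ (p + 1) = 0 := by
  rw [hh_eq_zero_iff]
  rintro c ⟨hc, ε, hε, h1, -⟩
  refine ⟨fun y => c (vecCons () y), fun x _ => ?_, ε, hε, fun x hx => ?_, fun x hx => ?_⟩
  · exact hc (vecCons () x) fun _ => mem_univ _
  · have h2 := h1 (vecCons () x) ⟨fun _ => mem_univ _, fun i j => by
      rw [Subsingleton.elim (vecCons () x i) (vecCons () x j), dist_self]; exact hε⟩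
    rw [d_cons, sub_eq_zero] at h2
    exact h2
  · exact absurd (hx.1 0) (notMem_empty _)

theorem hh_point_le (χ : k) (j : ℕ) :
    hh (id : Unit → Unit) χ univ ∅ j ≤ if j = 0 then 1 else 0 := by
  cases j with
  | zero => simpa using hh_point_zero χ
  | succ j => simp [hh_point_succ]

/-- The cohomology of the cube relative to its boundary. -/
theorem hh_cube_le {a b : ℝ} (hb : 0 < b) (hab : b ≤ a) (χ : k) (n j : ℕ) :
    hh (id : (Fin n → ℝ) → (Fin n → ℝ)) χ {u | ∀ i, |u i| ≤ a}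
      {u | (∀ i, |u i| ≤ a) ∧ ∃ i, b ≤ |u i|} j ≤ if j = n then 1 else 0 := by
  have e : hh (id : (Fin n → ℝ) → (Fin n → ℝ)) χ {u | ∀ i, |u i| ≤ a}
      {u | (∀ i, |u i| ≤ a) ∧ ∃ i, b ≤ |u i|} j ≤
      hh (Prod.map (id : Unit → Unit) id) χ (cub univ n a) (cub₀ univ ∅ n b a) j := by
    refine hh_le_of_inv (φ := fun u => ((), u)) (ψ := Prod.snd) ?_ ?_ (fun _ hu => hu.1)
      cub₀_subset (fun _ _ => rfl) χ j
    · exact ⟨fun u hu => ⟨mem_univ _, hu⟩, fun u hu => ⟨mem_univ _, hu.1, Or.inr hu.2⟩,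
        fun _ _ => rfl, fun ε hε => ⟨ε, hε, fun x _ y _ hxy =>
          dist_prod_lt (by simpa using hε) hxy⟩⟩
    · exact ⟨fun u hu => hu.2, fun u hu => ⟨hu.2.1, hu.2.2.resolve_left (notMem_empty _)⟩,
        fun _ _ => rfl, fun ε hε => ⟨ε, hε, fun x _ y _ hxy => (dist_snd_le x y).trans_lt hxy⟩⟩
  refine e.trans ?_
  rcases lt_or_ge j n with h | h
  · rw [hh_cub_lt (fun _ => Iff.rfl) (fun _ => Iff.rfl) hb hab χ h]
    simp
  · obtain ⟨q, rfl⟩ := Nat.exists_eq_add_of_le' h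
    rw [hh_cub (fun _ => Iff.rfl) (fun _ => Iff.rfl) (empty_subset _) hb hab]
    refine (hh_point_le χ q).trans (le_of_eq ?_)
    by_cases hq : q = 0
    · simp [hq]
    · rw [if_neg hq, if_neg (by omega)]

end Vale.Agent.P265.AS
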